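import Mathlib

namespace Vale.Agent.Results.P355.ButsonCyclotomic

open Polynomial

/-- Two orthonormal bases of `ℂ^6` are mutually unbiased when every inner product of a vector
of the first with a vector of the second has squared modulus `1/6`. -/
def MutuallyUnbiased (B C : OrthonormalBasis (Fin 6) ℂ (EuclideanSpace ℂ (Fin 6))) : Prop :=
  ∀ i j, ‖inner ℂ (B i) (C j)‖ ^ 2 = 1 / 6

/-- A basis is of Butson type of order `m` when every coordinate of every basis vector is an
`m`-th root of unity divided by `√6` (so the basis is `H/√6` for a complex Hadamard matrix `H`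
of order six whose entries are `m`-th roots of unity). -/
def IsButson (m : ℕ) (B : OrthonormalBasis (Fin 6) ℂ (EuclideanSpace ℂ (Fin 6))) : Prop :=
  ∀ i t, ∃ z : ℂ, z ^ m = 1 ∧ B i t = z / (Real.sqrt 6 : ℂ)

lemma expand_pow_zmod (p : ℕ) [Fact p.Prime] (t : ℕ) (f : (ZMod p)[X]) :
    expand (ZMod p) (p ^ t) f = f ^ (p ^ t) := by
  induction t with
  | zero => simp
  | succ t ih =>
    rw [pow_succ, expand_mul, ZMod.expand_card, map_pow, ih, ← pow_mul]

lemma no_norm_six (p r : ℕ) [hp : Fact p.Prime] (hpr : p * r = 6) (hr : ¬ p ∣ r)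
    (n : ℕ) (hn : 0 < n) (hpn : ¬ p ∣ n) (t : ℕ)
    (ζ : ℂ) (hζ : IsPrimitiveRoot ζ n) (c : ℤ[X])
    (h : aeval ζ c * aeval (ζ ^ (p ^ t)) c = 6) : False := by
  have hΦ : ∀ f : ℤ[X], aeval ζ f = 0 → cyclotomic n ℤ ∣ f := by
    intro f hf
    rw [cyclotomic_eq_minpoly hζ hn]
    exact minpoly.isIntegrallyClosed_dvd (hζ.isIntegral hn) hf
  have hroot : ∀ ξ : ℂ, IsPrimitiveRoot ξ n → aeval ξ (cyclotomic n ℤ) = 0 := by
    intro ξ hξ
    rw [aeval_def, eval₂_eq_eval_map, map_cyclotomic]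
    exact hξ.isRoot_cyclotomic hn
  have hcop : Nat.Coprime (p ^ t) n :=
    Nat.Coprime.pow_left t ((Nat.Prime.coprime_iff_not_dvd hp.out).mpr hpn)
  have hζ' : IsPrimitiveRoot (ζ ^ (p ^ t)) n := hζ.pow_of_coprime _ hcop
  have : NeZero ((n : ℕ) : ZMod p) := ⟨by
    intro h0
    exact hpn ((ZMod.natCast_eq_zero_iff n p).mp h0)⟩
  have hsq : Squarefree (cyclotomic n (ZMod p)) := (separable_cyclotomic n (ZMod p)).squarefree
  have h6 : ((6 : ℤ) : ZMod p) = 0 := by
    have : ((p * r : ℕ) : ZMod p) = 0 := by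
      push_cast
      simp
    rw [hpr] at this
    exact_mod_cast this
  -- first divisibility
  have h1 : cyclotomic n ℤ ∣ c * expand ℤ (p ^ t) c - C 6 := by
    apply hΦ
    rw [map_sub, map_mul, expand_aeval, h, aeval_C]
    norm_num
  have h1' : cyclotomic n (ZMod p) ∣ (c.map (Int.castRingHom (ZMod p))) ^ (p ^ t + 1) := by
    have := Polynomial.map_dvd (Int.castRingHom (ZMod p)) h1
    rw [map_cyclotomic, Polynomial.map_sub, Polynomial.map_mul, map_expand, expand_pow_zmod,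
      Polynomial.map_C] at this
    simp only [eq_intCast] at this
    rw [h6] at this
    simpa [pow_succ, mul_comm] using this
  have h2 : cyclotomic n (ZMod p) ∣ c.map (Int.castRingHom (ZMod p)) :=
    (hsq.dvd_pow_iff_dvd (Nat.succ_ne_zero _)).mp h1'
  obtain ⟨gbar, hg⟩ := h2
  obtain ⟨g, rfl⟩ := Polynomial.map_surjective (Int.castRingHom (ZMod p))
    (ZMod.intCast_surjective) gbar
  have h3 : C (p : ℤ) ∣ c - cyclotomic n ℤ * g := by
    rw [C_dvd_iff_dvd_coeff]
    intro i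
    have : ((c - cyclotomic n ℤ * g).map (Int.castRingHom (ZMod p))).coeff i = 0 := by
      rw [Polynomial.map_sub, Polynomial.map_mul, map_cyclotomic, hg, sub_self]
      simp
    rw [coeff_map] at this
    exact (ZMod.intCast_zmod_eq_zero_iff_dvd _ p).mp (by simpa using this)
  obtain ⟨c', hc'⟩ := h3
  have hc : c = cyclotomic n ℤ * g + C (p : ℤ) * c' := by
    rw [← hc']
    ring
  have e1 : aeval ζ c = (p : ℂ) * aeval ζ c' := by
    rw [hc, map_add, map_mul, map_mul, hroot ζ hζ]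
    simp
  have e2 : aeval (ζ ^ (p ^ t)) c = (p : ℂ) * aeval (ζ ^ (p ^ t)) c' := by
    rw [hc, map_add, map_mul, map_mul, hroot _ hζ']
    simp
  rw [e1, e2] at h
  have hp0 : (p : ℂ) ≠ 0 := by
    exact_mod_cast hp.out.ne_zero
  have h4 : (p : ℂ) * (aeval ζ c' * aeval (ζ ^ (p ^ t)) c') = r := by
    have h6' : ((p : ℂ) * (r : ℂ)) = 6 := by exact_mod_cast hpr
    apply mul_left_cancel₀ hp0
    rw [h6', ← h]
    ring
  have h5 : cyclotomic n ℤ ∣ C (p : ℤ) * (c' * expand ℤ (p ^ t) c') - C (r : ℤ) := by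
    apply hΦ
    rw [map_sub, map_mul, map_mul, expand_aeval, aeval_C, aeval_C]
    simp only [eq_intCast, Int.cast_natCast]
    rw [h4, sub_self]
  have h5' : cyclotomic n (ZMod p) ∣ C ((r : ℕ) : ZMod p) := by
    have := Polynomial.map_dvd (Int.castRingHom (ZMod p)) h5
    rw [map_cyclotomic, Polynomial.map_sub, Polynomial.map_mul, Polynomial.map_C,
      Polynomial.map_C] at this
    simp only [eq_intCast, Int.cast_natCast, CharP.cast_eq_zero, map_zero, zero_mul,
      zero_sub] at this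
    exact (dvd_neg.mp this)
  have hr0 : ((r : ℕ) : ZMod p) ≠ 0 := by
    intro h0
    exact hr ((ZMod.natCast_eq_zero_iff r p).mp h0)
  have hunit : IsUnit (cyclotomic n (ZMod p)) :=
    isUnit_of_dvd_unit h5' (Polynomial.isUnit_C.mpr (IsUnit.mk0 _ hr0))
  have hdeg := natDegree_eq_zero_of_isUnit hunit
  rw [natDegree_cyclotomic] at hdeg
  exact (Nat.totient_pos.mpr hn).ne' hdeg


/-- `z` and its complex conjugate are the values at `ζ` and at `ζ ^ s` of one integer
polynomial. -/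
def Rep (ζ : ℂ) (s : ℕ) (z : ℂ) : Prop :=
  ∃ c : ℤ[X], z = aeval ζ c ∧ (starRingEnd ℂ) z = aeval (ζ ^ s) c

lemma rep_zero (ζ : ℂ) (s : ℕ) : Rep ζ s 0 := ⟨0, by simp, by simp⟩

lemma rep_add {ζ : ℂ} {s : ℕ} {z w : ℂ} (hz : Rep ζ s z) (hw : Rep ζ s w) :
    Rep ζ s (z + w) := by
  obtain ⟨c, h1, h2⟩ := hz
  obtain ⟨d, h3, h4⟩ := hw
  exact ⟨c + d, by rw [map_add, h1, h3], by rw [map_add, map_add, h2, h4]⟩

lemma rep_neg {ζ : ℂ} {s : ℕ} {z : ℂ} (hz : Rep ζ s z) : Rep ζ s (-z) := by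
  obtain ⟨c, h1, h2⟩ := hz
  exact ⟨-c, by rw [map_neg, h1], by rw [map_neg, map_neg, h2]⟩

lemma rep_sum {ζ : ℂ} {s : ℕ} {ι : Type*} (S : Finset ι) (f : ι → ℂ)
    (h : ∀ i ∈ S, Rep ζ s (f i)) : Rep ζ s (∑ i ∈ S, f i) := by
  classical
  induction S using Finset.induction_on with
  | empty => simpa using rep_zero ζ s
  | insert a S ha ih =>
    rw [Finset.sum_insert ha]
    exact rep_add (h a (Finset.mem_insert_self a S))
      (ih (fun i hi => h i (Finset.mem_insert_of_mem hi)))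

lemma rep_pow {ζ : ℂ} {s : ℕ} (hconj : (starRingEnd ℂ) ζ = ζ ^ s) (k : ℕ) :
    Rep ζ s (ζ ^ k) :=
  ⟨X ^ k, by simp, by rw [map_pow, hconj]; simp⟩

/-- A sum of six complex numbers, each of which is plus or minus an `n`-th root of unity, never
has squared modulus `6`, as soon as a prime `p` in `{2, 3}` not dividing `n` has a power
congruent to `-1` modulo `n`. -/
lemma normSq_sum_ne_six (p r : ℕ) [hp : Fact p.Prime] (hpr : p * r = 6) (hr : ¬ p ∣ r)
    (n : ℕ) (hn : 0 < n) (hpn : ¬ p ∣ n) (t : ℕ) (hs : n ∣ p ^ t + 1)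
    (w : Fin 6 → ℂ) (hw : ∀ i, w i ^ n = 1 ∨ (-(w i)) ^ n = 1) :
    Complex.normSq (∑ i, w i) ≠ 6 := by
  intro hN
  have hn0 : n ≠ 0 := hn.ne'
  have : NeZero n := ⟨hn0⟩
  set ζ : ℂ := Complex.exp (2 * Real.pi * Complex.I / n) with hζdef
  have hζ : IsPrimitiveRoot ζ n := Complex.isPrimitiveRoot_exp n hn0
  have hnorm : ‖ζ‖ = 1 := Complex.norm_eq_one_of_pow_eq_one hζ.pow_eq_one hn0
  have h1 : ζ ^ (p ^ t) * ζ = 1 := by
    rw [← pow_succ]
    obtain ⟨k, hk⟩ := hs
    rw [hk, pow_mul, hζ.pow_eq_one, one_pow]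
  have h2 : (starRingEnd ℂ) ζ * ζ = 1 := by
    rw [← Complex.normSq_eq_conj_mul_self, Complex.normSq_eq_norm_sq, hnorm]
    norm_num
  have hconj : (starRingEnd ℂ) ζ = ζ ^ (p ^ t) := by
    have hζ0 : ζ ≠ 0 := by
      intro h0
      rw [h0] at h1
      simp at h1
    exact mul_right_cancel₀ hζ0 (h2.trans h1.symm)
  have hrep : ∀ i, Rep ζ (p ^ t) (w i) := by
    intro i
    rcases hw i with h | h
    · obtain ⟨k, -, hk⟩ := hζ.eq_pow_of_pow_eq_one h
      rw [← hk]
      exact rep_pow hconj k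
    · obtain ⟨k, -, hk⟩ := hζ.eq_pow_of_pow_eq_one h
      have : w i = -(ζ ^ k) := by rw [hk]; ring
      rw [this]
      exact rep_neg (rep_pow hconj k)
  obtain ⟨c, hc1, hc2⟩ := rep_sum Finset.univ w (fun i _ => hrep i)
  have h6 : aeval ζ c * aeval (ζ ^ (p ^ t)) c = 6 := by
    rw [← hc1, ← hc2, Complex.mul_conj, hN]
    norm_num
  exact no_norm_six p r hpr hr n hn hpn t ζ hζ c h6

/-- the inner product of two vectors of two Butson-type bases, in terms of the roots of
unity. -/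
lemma exists_roots (m : ℕ) (B C : OrthonormalBasis (Fin 6) ℂ (EuclideanSpace ℂ (Fin 6)))
    (hB : IsButson m B) (hC : IsButson m C) (i j : Fin 6)
    (h : ‖inner ℂ (B i) (C j)‖ ^ 2 = 1 / 6) :
    ∃ w : Fin 6 → ℂ, (∀ t, w t ^ m = 1) ∧ Complex.normSq (∑ t, w t) = 6 := by
  choose zB hzB hB' using hB i
  choose zC hzC hC' using hC j
  refine ⟨fun t => (starRingEnd ℂ) (zB t) * zC t, ?_, ?_⟩
  · intro t
    rw [mul_pow, ← map_pow, hzB t, hzC t]
    simp
  · have hs : ((Real.sqrt 6 : ℝ) : ℂ) * ((Real.sqrt 6 : ℝ) : ℂ) = 6 := by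
      rw [← Complex.ofReal_mul, Real.mul_self_sqrt (by norm_num)]
      norm_num
    have hs0 : ((Real.sqrt 6 : ℝ) : ℂ) ≠ 0 := by
      intro h0
      rw [h0] at hs
      norm_num at hs
    have hinner : inner ℂ (B i) (C j) = (∑ t, (starRingEnd ℂ) (zB t) * zC t) / 6 := by
      rw [PiLp.inner_apply, Finset.sum_div]
      refine Finset.sum_congr rfl (fun t _ => ?_)
      have e1 : (B i).ofLp t = zB t / (Real.sqrt 6 : ℂ) := hB' t
      have e2 : (C j).ofLp t = zC t / (Real.sqrt 6 : ℂ) := hC' t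
      rw [RCLike.inner_apply, e1, e2, map_div₀, Complex.conj_ofReal]
      field_simp
      rw [← hs]
      ring
    rw [hinner] at h
    have h1 : Complex.normSq ((∑ t, (starRingEnd ℂ) (zB t) * zC t) / 6) = 1 / 6 := by
      rw [Complex.normSq_eq_norm_sq]
      exact h
    rw [Complex.normSq_div] at h1
    have h6 : Complex.normSq (6 : ℂ) = 36 := by
      rw [Complex.normSq_apply]
      norm_num
    rw [h6] at h1
    field_simp at h1
    linarith

/-- Let `m` divide `2 * (2 ^ t + 1)` or `3 ^ t + 1` for some `t`. Then no vector of a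
Butson-type basis of order `m` of `ℂ^6` is unbiased to any vector of another Butson-type basis
of order `m`; in particular two such bases are never mutually unbiased. -/
theorem result (m : ℕ) (hm : (∃ t, m ∣ 2 * (2 ^ t + 1)) ∨ (∃ t, m ∣ 3 ^ t + 1))
    (B C : OrthonormalBasis (Fin 6) ℂ (EuclideanSpace ℂ (Fin 6)))
    (hB : IsButson m B) (hC : IsButson m C) :
    (∀ i j, ‖inner ℂ (B i) (C j)‖ ^ 2 ≠ 1 / 6) ∧ ¬ MutuallyUnbiased B C := by
  have main : ∀ i j, ‖inner ℂ (B i) (C j)‖ ^ 2 ≠ 1 / 6 := by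
    intro i j h
    obtain ⟨w, hw, hN⟩ := exists_roots m B C hB hC i j h
    have caseA : ∀ t, m ∣ 3 ^ t + 1 → False := by
      intro t ht
      have : Fact (Nat.Prime 3) := ⟨Nat.prime_three⟩
      refine normSq_sum_ne_six 3 2 (by norm_num) (by norm_num) (3 ^ t + 1) (by positivity) ?_ t
        dvd_rfl w ?_ hN
      · intro h3
        rcases Nat.eq_zero_or_pos t with rfl | htpos
        · norm_num at h3
        · have h3' : 3 ∣ 3 ^ t := dvd_pow_self 3 htpos.ne'
          have := (Nat.dvd_add_right h3').mp h3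
          norm_num at this
      · intro i
        left
        obtain ⟨k, hk⟩ := ht
        rw [hk, pow_mul, hw i, one_pow]
    rcases hm with ⟨t, ht⟩ | ⟨t, ht⟩
    · rcases Nat.eq_zero_or_pos t with rfl | htpos
      · exact caseA 1 (by simpa using ht)
      · have : Fact (Nat.Prime 2) := ⟨Nat.prime_two⟩
        have hodd : Odd (2 ^ t + 1) := by
          have : Even (2 ^ t) := (Nat.even_pow' htpos.ne').mpr even_two
          exact this.add_one
        refine normSq_sum_ne_six 2 3 (by norm_num) (by norm_num) (2 ^ t + 1) (by positivity) ?_ t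
          dvd_rfl w ?_ hN
        · intro h2
          exact (Nat.not_even_iff_odd.mpr hodd) (even_iff_two_dvd.mpr h2)
        · intro i
          have h1 : (w i ^ (2 ^ t + 1)) ^ 2 = 1 := by
            obtain ⟨k, hk⟩ := ht
            rw [← pow_mul, mul_comm, hk, pow_mul, hw i, one_pow]
          rcases sq_eq_one_iff.mp h1 with h | h
          · left
            exact h
          · right
            rw [hodd.neg_pow, h, neg_neg]
    · exact caseA t ht
  exact ⟨main, fun hMU => main 0 0 (hMU 0 0)⟩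

end Vale.Agent.Results.P355.ButsonCyclotomic
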