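import Mathlib
import Vale.Agent.Helper6.P355Plain

/-!
P355 (mutually unbiased bases in dimension six), plain form of `P355.ButsonCyclotomic`:
the same obstruction, stated for two vectors of `ℂ^6` with no definitions of ours.

Let `m` divide `2 (2^t + 1)` or `3^t + 1` for some `t`.  If `b` and `c` are vectors of `ℂ^6`
all of whose coordinates are `m`-th roots of unity divided by `√6`, then their inner product
`∑ t, conj (b t) * c t` does not have squared modulus `1/6`.
-/

namespace Vale.Agent.Results.P355.ButsonPlain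

theorem result (m : ℕ) (hm : (∃ t, m ∣ 2 * (2 ^ t + 1)) ∨ (∃ t, m ∣ 3 ^ t + 1))
    (b c : Fin 6 → ℂ)
    (hb : ∀ t, ∃ z : ℂ, z ^ m = 1 ∧ b t = z / (Real.sqrt 6 : ℂ))
    (hc : ∀ t, ∃ z : ℂ, z ^ m = 1 ∧ c t = z / (Real.sqrt 6 : ℂ)) :
    ‖∑ t, (starRingEnd ℂ) (b t) * c t‖ ^ 2 ≠ 1 / 6 :=
  Vale.Agent.Helper6.P355Plain.vector_form m hm b c hb hc

end Vale.Agent.Results.P355.ButsonPlain
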