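import Mathlib

namespace Vale.Agent.Results.P355.ButsonQuadratic

open Complex

/-- Two orthonormal bases of `ℂ^6` are mutually unbiased when every inner product of a vector
of the first with a vector of the second has squared modulus `1/6`. -/
def MutuallyUnbiased (B C : OrthonormalBasis (Fin 6) ℂ (EuclideanSpace ℂ (Fin 6))) : Prop :=
  ∀ i j, ‖inner ℂ (B i) (C j)‖ ^ 2 = 1 / 6

/-- A basis is of Butson type of order `m` when every coordinate of every basis vector is an
`m`-th root of unity divided by `√6` (so the basis is `H/√6` for a complex Hadamard matrix `H`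
whose entries are `m`-th roots of unity). -/
def IsButson (m : ℕ) (B : OrthonormalBasis (Fin 6) ℂ (EuclideanSpace ℂ (Fin 6))) : Prop :=
  ∀ i t, ∃ z : ℂ, z ^ m = 1 ∧ B i t = z / (Real.sqrt 6 : ℂ)

/-- Elements `a + b θ` with integer `a`, `b`. -/
def InRing (θ : ℂ) (z : ℂ) : Prop := ∃ a b : ℤ, z = a + b * θ

lemma inRing_add {θ z w : ℂ} (hz : InRing θ z) (hw : InRing θ w) : InRing θ (z + w) := by
  obtain ⟨a, b, rfl⟩ := hz
  obtain ⟨c, d, rfl⟩ := hw
  exact ⟨a + c, b + d, by push_cast; ring⟩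

lemma inRing_zero (θ : ℂ) : InRing θ 0 := ⟨0, 0, by simp⟩

lemma inRing_sum {θ : ℂ} {ι : Type*} (s : Finset ι) (f : ι → ℂ) (h : ∀ i ∈ s, InRing θ (f i)) :
    InRing θ (∑ i ∈ s, f i) := by
  classical
  induction s using Finset.induction_on with
  | empty => simpa using inRing_zero θ
  | insert a s ha ih =>
    rw [Finset.sum_insert ha]
    exact inRing_add (h a (Finset.mem_insert_self a s))
      (ih (fun i hi => h i (Finset.mem_insert_of_mem hi)))

lemma inRing_mul {θ : ℂ} {u v : ℤ} (hθ : θ ^ 2 = u * θ + v) {z w : ℂ}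
    (hz : InRing θ z) (hw : InRing θ w) : InRing θ (z * w) := by
  obtain ⟨a, b, rfl⟩ := hz
  obtain ⟨c, d, rfl⟩ := hw
  refine ⟨a * c + b * d * v, a * d + b * c + b * d * u, ?_⟩
  push_cast
  linear_combination (b * d : ℂ) * hθ

lemma inRing_conj {θ : ℂ} {u : ℤ} (hc : (starRingEnd ℂ) θ = u - θ) {z : ℂ}
    (hz : InRing θ z) : InRing θ ((starRingEnd ℂ) z) := by
  obtain ⟨a, b, rfl⟩ := hz
  refine ⟨a + b * u, -b, ?_⟩
  simp only [map_add, map_mul, map_intCast, hc]
  push_cast
  ring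

lemma normSq_inRing {θ : ℂ} {u v : ℤ} (hθ : θ ^ 2 = u * θ + v)
    (hc : (starRingEnd ℂ) θ = u - θ) (a b : ℤ) :
    ((Complex.normSq (a + b * θ) : ℝ) : ℂ) = ((a ^ 2 + u * a * b - v * b ^ 2 : ℤ) : ℂ) := by
  rw [Complex.normSq_eq_conj_mul_self]
  simp only [map_add, map_mul, map_intCast, hc]
  push_cast
  linear_combination (-(b : ℂ) ^ 2) * hθ

/-- the key arithmetic fact: the inner product of two vectors of the two bases is never of
squared modulus `1/6` when `6` is not a norm from the quadratic ring. -/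
lemma no_mub_of_ring {θ : ℂ} {u v : ℤ} (hθ : θ ^ 2 = u * θ + v)
    (hc : (starRingEnd ℂ) θ = u - θ)
    (hnorm : ∀ a b : ℤ, a ^ 2 + u * a * b - v * b ^ 2 ≠ 6)
    (B C : OrthonormalBasis (Fin 6) ℂ (EuclideanSpace ℂ (Fin 6)))
    (hB : ∀ i t, ∃ z : ℂ, InRing θ z ∧ B i t = z / (Real.sqrt 6 : ℂ))
    (hC : ∀ i t, ∃ z : ℂ, InRing θ z ∧ C i t = z / (Real.sqrt 6 : ℂ)) :
    ¬ MutuallyUnbiased B C := by
  intro hMU
  have h00 := hMU 0 0
  choose zB hzB hB' using hB 0
  choose zC hzC hC' using hC 0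
  have hs : ((Real.sqrt 6 : ℝ) : ℂ) * ((Real.sqrt 6 : ℝ) : ℂ) = 6 := by
    rw [← Complex.ofReal_mul, Real.mul_self_sqrt (by norm_num)]
    norm_num
  have hs0 : ((Real.sqrt 6 : ℝ) : ℂ) ≠ 0 := by
    intro h
    rw [h] at hs
    norm_num at hs
  have hinner : inner ℂ (B 0) (C 0) = (∑ t, (starRingEnd ℂ) (zB t) * zC t) / 6 := by
    rw [PiLp.inner_apply, Finset.sum_div]
    refine Finset.sum_congr rfl (fun t _ => ?_)
    have e1 : (B 0).ofLp t = zB t / (Real.sqrt 6 : ℂ) := hB' t
    have e2 : (C 0).ofLp t = zC t / (Real.sqrt 6 : ℂ) := hC' t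
    rw [RCLike.inner_apply, e1, e2, map_div₀, Complex.conj_ofReal]
    field_simp
    rw [← hs]
    ring
  have hα : InRing θ (∑ t, (starRingEnd ℂ) (zB t) * zC t) :=
    inRing_sum _ _ (fun t _ => inRing_mul hθ (inRing_conj hc (hzB t)) (hzC t))
  obtain ⟨a, b, hab⟩ := hα
  rw [hinner, hab] at h00
  have h1 : Complex.normSq (((a : ℂ) + b * θ) / 6) = 1 / 6 := by
    rw [Complex.normSq_eq_norm_sq]
    exact h00
  rw [Complex.normSq_div] at h1
  have h6 : Complex.normSq (6 : ℂ) = 36 := by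
    rw [Complex.normSq_apply]
    norm_num
  rw [h6] at h1
  have h2 : Complex.normSq ((a : ℂ) + b * θ) = 6 := by
    field_simp at h1
    linarith
  have h3 := normSq_inRing hθ hc a b
  rw [h2] at h3
  have h4 : (a ^ 2 + u * a * b - v * b ^ 2 : ℤ) = 6 := by
    have : ((6 : ℤ) : ℂ) = ((a ^ 2 + u * a * b - v * b ^ 2 : ℤ) : ℂ) := by
      rw [← h3]
      norm_num
    exact_mod_cast this.symm
  exact hnorm a b h4

/-- The primitive cube root of unity `-1/2 + (√3/2) i`. -/
noncomputable def zeta3 : ℂ := ⟨-1 / 2, Real.sqrt 3 / 2⟩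

lemma zeta3_sq : zeta3 ^ 2 = ((-1 : ℤ) : ℂ) * zeta3 + ((-1 : ℤ) : ℂ) := by
  have h3 : Real.sqrt 3 * Real.sqrt 3 = 3 := Real.mul_self_sqrt (by norm_num)
  apply Complex.ext
  · simp only [zeta3, pow_two, Complex.mul_re, Complex.add_re, Complex.intCast_re,
      Complex.intCast_im]
    push_cast
    nlinarith
  · simp only [zeta3, pow_two, Complex.mul_im, Complex.add_im, Complex.intCast_re,
      Complex.intCast_im]
    push_cast
    ring

lemma zeta3_conj : (starRingEnd ℂ) zeta3 = ((-1 : ℤ) : ℂ) - zeta3 := by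
  apply Complex.ext
  · simp only [zeta3, Complex.conj_re, Complex.sub_re, Complex.intCast_re]
    push_cast
    ring
  · simp only [zeta3, Complex.conj_im, Complex.sub_im, Complex.intCast_im]
    ring

lemma I_sq' : Complex.I ^ 2 = ((0 : ℤ) : ℂ) * Complex.I + ((-1 : ℤ) : ℂ) := by
  rw [Complex.I_sq]
  push_cast
  ring

lemma I_conj' : (starRingEnd ℂ) Complex.I = ((0 : ℤ) : ℂ) - Complex.I := by
  rw [Complex.conj_I]
  push_cast
  ring

lemma inRing_I_of_pow_four {z : ℂ} (hz : z ^ 4 = 1) : InRing Complex.I z := by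
  have h : (z - 1) * (z + 1) * (z - Complex.I) * (z + Complex.I) = 0 := by
    have hI : Complex.I ^ 2 = -1 := Complex.I_sq
    linear_combination hz - (z ^ 2 - 1) * hI
  rcases mul_eq_zero.mp h with h | h
  · rcases mul_eq_zero.mp h with h | h
    · rcases mul_eq_zero.mp h with h | h
      · exact ⟨1, 0, by push_cast; linear_combination h⟩
      · exact ⟨-1, 0, by push_cast; linear_combination h⟩
    · exact ⟨0, 1, by push_cast; linear_combination h⟩
  · exact ⟨0, -1, by push_cast; linear_combination h⟩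

lemma inRing_omega_of_pow_six {z : ℂ} (hz : z ^ 6 = 1) : InRing zeta3 z := by
  have hw : zeta3 ^ 2 = -zeta3 - 1 := by
    have := zeta3_sq
    push_cast at this
    linear_combination this
  have h1 : (z + 1 + zeta3) * (z - 1 - zeta3) = z ^ 2 - zeta3 := by
    linear_combination (-1 : ℂ) * hw
  have h2 : (z - zeta3) * (z + zeta3) * (z ^ 2 - zeta3) = z ^ 4 + z ^ 2 + 1 := by
    linear_combination (zeta3 - 1 - z ^ 2) * hw
  have h : (z - 1) * (z + 1) * ((z - zeta3) * (z + zeta3) *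
      ((z + 1 + zeta3) * (z - 1 - zeta3))) = 0 := by
    rw [h1, h2]
    linear_combination hz
  rcases mul_eq_zero.mp h with h | h
  · rcases mul_eq_zero.mp h with h | h
    · exact ⟨1, 0, by push_cast; linear_combination h⟩
    · exact ⟨-1, 0, by push_cast; linear_combination h⟩
  · rcases mul_eq_zero.mp h with h | h
    · rcases mul_eq_zero.mp h with h | h
      · exact ⟨0, 1, by push_cast; linear_combination h⟩
      · exact ⟨0, -1, by push_cast; linear_combination h⟩
    · rcases mul_eq_zero.mp h with h | h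
      · exact ⟨-1, -1, by push_cast; linear_combination h⟩
      · exact ⟨1, 1, by push_cast; linear_combination h⟩

lemma gauss_ne_six (a b : ℤ) : a ^ 2 + (0 : ℤ) * a * b - (-1 : ℤ) * b ^ 2 ≠ 6 := by
  intro h
  have ha : a ^ 2 ≤ 6 := by nlinarith [sq_nonneg b]
  have hb : b ^ 2 ≤ 6 := by nlinarith [sq_nonneg a]
  have ha1 : -2 ≤ a := by nlinarith
  have ha2 : a ≤ 2 := by nlinarith
  have hb1 : -2 ≤ b := by nlinarith
  have hb2 : b ≤ 2 := by nlinarith
  interval_cases a <;> interval_cases b <;> omega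

lemma eisenstein_ne_six (a b : ℤ) : a ^ 2 + (-1 : ℤ) * a * b - (-1 : ℤ) * b ^ 2 ≠ 6 := by
  intro h
  have hb : b ^ 2 ≤ 8 := by nlinarith [sq_nonneg (2 * a - b)]
  have ha : a ^ 2 ≤ 8 := by nlinarith [sq_nonneg (2 * b - a)]
  have ha1 : -2 ≤ a := by nlinarith
  have ha2 : a ≤ 2 := by nlinarith
  have hb1 : -2 ≤ b := by nlinarith
  have hb2 : b ≤ 2 := by nlinarith
  interval_cases a <;> interval_cases b <;> omega

/-- No two orthonormal bases of `ℂ^6` of Butson type of the same order `m`, with `m ∣ 4` or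
`m ∣ 6`, are mutually unbiased. -/
theorem result (m : ℕ) (hm : m ∣ 4 ∨ m ∣ 6)
    (B C : OrthonormalBasis (Fin 6) ℂ (EuclideanSpace ℂ (Fin 6)))
    (hB : IsButson m B) (hC : IsButson m C) : ¬ MutuallyUnbiased B C := by
  rcases hm with hm | hm
  · obtain ⟨k, hk⟩ := hm
    have key : ∀ z : ℂ, z ^ m = 1 → InRing Complex.I z := fun z hz =>
      inRing_I_of_pow_four (by rw [hk, pow_mul, hz, one_pow])
    refine no_mub_of_ring I_sq' I_conj' gauss_ne_six B C ?_ ?_
    · intro i t
      obtain ⟨z, hz, h⟩ := hB i t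
      exact ⟨z, key z hz, h⟩
    · intro i t
      obtain ⟨z, hz, h⟩ := hC i t
      exact ⟨z, key z hz, h⟩
  · obtain ⟨k, hk⟩ := hm
    have key : ∀ z : ℂ, z ^ m = 1 → InRing zeta3 z := fun z hz =>
      inRing_omega_of_pow_six (by rw [hk, pow_mul, hz, one_pow])
    refine no_mub_of_ring zeta3_sq zeta3_conj eisenstein_ne_six B C ?_ ?_
    · intro i t
      obtain ⟨z, hz, h⟩ := hB i t
      exact ⟨z, key z hz, h⟩
    · intro i t
      obtain ⟨z, hz, h⟩ := hC i t
      exact ⟨z, key z hz, h⟩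

end Vale.Agent.Results.P355.ButsonQuadratic
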