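import Mathlib
import Vale.Agent.Helper6.P355Field

/-!
P355 (mutually unbiased bases in dimension six): the obstruction of `P355.ButsonPlain` for
vectors with coordinates in a cyclotomic FIELD instead of roots of unity.

Let `n` divide `2^t + 1` or `3^t + 1` for some `t`, let `ζ` be a primitive `n`-th root of
unity and `ℚ(ζ)` the subfield of `ℂ` it generates.  If `b` and `c` are vectors of `ℂ^6` all of
whose coordinates are elements of `ℚ(ζ)` divided by `√6`, then their inner product
`∑ t, conj (b t) * c t` does not have squared modulus `1/6`.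

The roots of unity of the orders covered by `P355.ButsonPlain` lie in these fields, so this
contains that hand-in; the new statement also covers all other elements of the field, for
example all unimodular ones (a dense set of phases when `n ≥ 3`).  Proof: `6` is not of the
form `S * conj S` with `S ∈ ℚ(ζ)`, by descent on the denominator of `S`.
-/

namespace Vale.Agent.Results.P355.CyclotomicFieldEntries

theorem result (n : ℕ) (hn : (∃ t, n ∣ 2 ^ t + 1) ∨ (∃ t, n ∣ 3 ^ t + 1))
    (ζ : ℂ) (hζ : IsPrimitiveRoot ζ n) (b c : Fin 6 → ℂ)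
    (hb : ∀ t, ∃ z ∈ IntermediateField.adjoin ℚ {ζ}, b t = z / (Real.sqrt 6 : ℂ))
    (hc : ∀ t, ∃ z ∈ IntermediateField.adjoin ℚ {ζ}, c t = z / (Real.sqrt 6 : ℂ)) :
    ‖∑ t, (starRingEnd ℂ) (b t) * c t‖ ^ 2 ≠ 1 / 6 :=
  Vale.Agent.Helper6.P355Field.vector_form_adjoin n hn ζ hζ b c hb hc

end Vale.Agent.Results.P355.CyclotomicFieldEntries
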